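import Vale.Agent.P207.Q.H892.Meas
import Vale.Agent.P207.Q.ConstSym

/-!
# P207: the curvature functions of the orthonormal frame bundle

`Rf g f i j k l` is the curvature component `⟨R(e_i, e_j) e_k, e_l⟩` of the orthonormal frame `f`.
If `⟨R(e_1, e_0) e_0, e_1⟩` is the same constant for all frames, the metric is locally symmetric.
-/

open scoped Manifold ContDiff ENNReal Topology
open Bundle MeasureTheory Set Filter

set_option maxSynthPendingDepth 3

noncomputable section

namespace Vale.Agent.P207.Q.H545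

open Vale.Agent.P255 (RMetric coefIn Gam Riem IsGeo Metric trans coefL)
open Vale.Agent.P207 Vale.Agent.P207.Q Vale.Agent.P207.Q.H892

variable {n : ℕ} {M : Type} [TopologicalSpace M] [ChartedSpace (EV n) M]
  [IsManifold 𝓘(ℝ, EV n) ∞ M] {g : RMetric (EV n) M}

/-- the curvature components of an orthonormal frame -/
def Rf (g : RMetric (EV n) M) (f : Fr g) (i j k l : Fin n) : ℝ :=
  (mt g).coef f.pt (chartAt (EV n) f.pt f.pt)
    (D1.curvT ((mt g).coef f.pt) (chartAt (EV n) f.pt f.pt) (f.e i) (f.e j) (f.e k)) (f.e l)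

/-- the curvature components in any chart -/
theorem Rf_eq (f : Fr g) (i j k l : Fin n) {a : M} (ha : f.pt ∈ (chartAt (EV n) a).source) :
    Rf g f i j k l = (mt g).coef a (chF a f.1).1
      (D1.curvT ((mt g).coef a) (chF a f.1).1 ((chF a f.1).2 i) ((chF a f.1).2 j)
        ((chF a f.1).2 k)) ((chF a f.1).2 l) := by
  have hm := (mt g).isMetricOn f.pt
  have hm' := (mt g).isMetricOn a
  have hu : chartAt (EV n) f.pt f.pt ∈ (chartAt (EV n) f.pt).target := mem_chart_target _ _
  have hb' : (chartAt (EV n) f.pt).symm (chartAt (EV n) f.pt f.pt) ∈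
      (chartAt (EV n) a).source := by
    rw [(chartAt (EV n) f.pt).left_inv (mem_chart_source _ f.pt)]; exact ha
  have hev := P255.eventually_trans f.pt a hu hb'
  have hcc : trans (EV n) f.pt a (chartAt (EV n) f.pt f.pt) = chartAt (EV n) a f.pt :=
    P255.trans_symm_source f.pt a (mem_chart_source (EV n) f.pt)
  have h1 : ∀ᶠ x in 𝓝 (chartAt (EV n) f.pt f.pt), trans (EV n) f.pt a x ∈
      (chartAt (EV n) a).target := by
    filter_upwards [hev] with x hx
    exact (chartAt (EV n) a).map_source hx.2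
  have h2 : ∀ᶠ x in 𝓝 (chartAt (EV n) f.pt f.pt), ContDiffAt ℝ ∞ (trans (EV n) f.pt a) x := by
    filter_upwards [hev] with x hx
    exact P255.contDiffAt_trans f.pt a hx.1 hx.2
  have h3 : ∀ᶠ x in 𝓝 (chartAt (EV n) f.pt f.pt), ∀ v w, (mt g).coef a (trans (EV n) f.pt a x)
      (fderiv ℝ (trans (EV n) f.pt a) x v) (fderiv ℝ (trans (EV n) f.pt a) x w) =
      (mt g).coef f.pt x v w := by
    filter_upwards [hev] with x hx
    exact (mt g).compat f.pt a x hx.1 hx.2
  have key := D1.curvT_trans hm hm' hu h1 h2 h3 (f.e i) (f.e j) (f.e k)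
  have h3' := h3.self_of_nhds
    (D1.curvT ((mt g).coef f.pt) (chartAt (EV n) f.pt f.pt) (f.e i) (f.e j) (f.e k)) (f.e l)
  rw [key, hcc] at h3'
  exact h3'.symm

/-- every orthonormal pair is part of an orthonormal frame -/
theorem exists_frame_pair {i₀ i₁ : Fin n} (hi : i₀ ≠ i₁) (x : M) {v w : EV n}
    (hv : innerB g x v v = 1) (hvw : innerB g x v w = 0) (hw : innerB g x w w = 1) :
    ∃ f : Fr g, f.pt = x ∧ f.e i₀ = v ∧ f.e i₁ = w := by
  obtain ⟨f, rfl⟩ := exists_frame g x
  set cv : EV n → EV n := fun v => WithLp.toLp 2 (fun i => g.inner f.pt v (f.e i)) with hcv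
  have h1 : ∀ v, Lf f (cv v) = v := fun v => by
    rw [Lf_apply]
    exact (f.expand v).symm
  have h2 : ∀ v w, inner ℝ (cv v) (cv w) = innerB g f.pt v w := fun v w => by
    have h3 := inner_Lf f (cv v) (cv w)
    rw [h1, h1] at h3
    exact h3.symm
  set F : Fin n → EV n := fun i => if i = i₀ then cv v else cv w with hF
  have hF0 : F i₀ = cv v := by simp [hF]
  have hF1 : F i₁ = cv w := by simp [hF, hi.symm]
  have hsymm : innerB g f.pt w v = innerB g f.pt v w := g.symm f.pt w v
  have hon : Orthonormal ℝ (({i₀, i₁} : Set (Fin n)).domRestrict F) := by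
    rw [orthonormal_iff_ite]
    intro i j
    have hval : ∀ i : ({i₀, i₁} : Set (Fin n)), i.1 = i₀ ∨ i.1 = i₁ := fun i => i.2
    change inner ℝ (F i.1) (F j.1) = _
    rcases hval i with hi' | hi' <;> rcases hval j with hj' | hj'
    · rw [hi', hj', hF0, h2, hv, if_pos (Subtype.ext (hi'.trans hj'.symm))]
    · rw [hi', hj', hF0, hF1, h2, hvw, if_neg]
      intro h; rw [h] at hi'; exact hi (hi'.symm.trans hj')
    · rw [hi', hj', hF0, hF1, h2, hsymm, hvw, if_neg]
      intro h; rw [h] at hi'; exact hi (hj'.symm.trans hi')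
    · rw [hi', hj', hF1, h2, hw, if_pos (Subtype.ext (hi'.trans hj'.symm))]
  obtain ⟨b, hb⟩ := hon.exists_orthonormalBasis_extension_of_card_eq (by simp)
  refine ⟨⟨⟨f.pt, fun j => Lf f (b j)⟩, fun i j => ?_⟩, rfl, ?_, ?_⟩
  · change innerB g f.pt (Lf f (b i)) (Lf f (b j)) = _
    rw [inner_Lf]
    exact orthonormal_iff_ite.1 b.orthonormal i j
  · change Lf f (b i₀) = v
    rw [hb i₀ (by simp), hF0, h1]
  · change Lf f (b i₁) = w
    rw [hb i₁ (by simp), hF1, h1]

/-- **Step 5, geometric end.** -/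
theorem locSymmetric_of_frames {i₀ i₁ : Fin n} (hi : i₀ ≠ i₁) {κ : ℝ}
    (h : ∀ f : Fr g, Rf g f i₁ i₀ i₀ i₁ = κ) : LocSymmetric g := by
  apply locSymmetric_of_const_unit (κ := κ)
  intro a u hu v w hv hvw hw
  have hx : (chartAt (EV n) a).symm u ∈ (chartAt (EV n) a).source :=
    (chartAt (EV n) a).map_target hu
  set x := (chartAt (EV n) a).symm u with hxdef
  have hux : chartAt (EV n) a x = u := (chartAt (EV n) a).right_inv hu
  set T : EV n → EV n := fun v => fderiv ℝ (trans (EV n) a x) u v with hT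
  have hin : ∀ v w, innerB g x (T v) (T w) = coefIn g a u v w := by
    intro v w
    have h1 := inner_chFs (ι := Fin 2) g a (y := (u, ![v, w])) hu 0 1
    exact h1
  obtain ⟨f, hf, hf0, hf1⟩ := exists_frame_pair (g := g) hi x (v := T v) (w := T w)
    (by rw [hin]; exact hv) (by rw [hin]; exact hvw) (by rw [hin]; exact hw)
  have hfs : f.pt ∈ (chartAt (EV n) a).source := by rw [hf]; exact hx
  have h2 := Rf_eq f i₁ i₀ i₀ i₁ hfs
  rw [h f] at h2
  have hc1 : (chF a f.1).1 = u := by
    change chartAt (EV n) a f.pt = u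
    rw [hf]; exact hux
  have hc : ∀ i v, f.e i = T v → (chF a f.1).2 i = v := by
    intro i v hv
    change fderiv ℝ (trans (EV n) f.pt a) (chartAt (EV n) f.pt f.pt) (f.e i) = v
    rw [hv, hf, hT]
    have := fderiv_trans_forth a hx v
    rw [hux] at this
    exact this
  rw [hc1, hc i₀ v hf0, hc i₁ w hf1] at h2
  rw [h2, ← D1.riem_mt g a hu]
  rfl

end Vale.Agent.P207.Q.H545
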