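import Vale.Agent.P207.Q.H743.Brk

/-!
# P207: the curvature components as functions on the linear frames, in a chart

`RR G i j k l p = ⟨R(e_i, e_j) e_k, e_l⟩` at the linear frame `p = (u, e)`; its derivatives along
the horizontal and vertical fields, and the second Bianchi identity.
-/

open scoped Manifold ContDiff ENNReal Topology
open Set Filter

set_option maxSynthPendingDepth 3

noncomputable section

namespace Vale.Agent.P207.Q.H545

open Vale.Agent.P255 Vale.Agent.P207.D1 Vale.Agent.P207.Q.Brk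

section Coord

variable {E : Type} [NormedAddCommGroup E] [NormedSpace ℝ E]
variable {ι : Type} [Fintype ι]
variable {G : E → E →L[ℝ] E →L[ℝ] ℝ} {U : Set E}

/-- the covariant derivative `(∇_w R)(x, y) z` -/
def nabR (G : E → E →L[ℝ] E →L[ℝ] ℝ) (u w x y z : E) : E :=
  fderiv ℝ (curvT G) u w x y z + chrisB G u w (curvT G u x y z)
    - curvT G u (chrisB G u w x) y z - curvT G u x (chrisB G u w y) z
    - curvT G u x y (chrisB G u w z)

variable [FiniteDimensional ℝ E]

theorem chrisB_symm (h : IsMetricOn G U) {u : E} (hu : u ∈ U) (x y : E) :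
    chrisB G u x y = chrisB G u y x := by
  rw [chrisB_apply, chrisB_apply, h.chris_symm hu]

/-- the derivative of the curvature tensor, in terms of the Christoffel symbols -/
theorem fderiv_curvT (h : IsMetricOn G U) {u : E} (hu : u ∈ U) (w x y z : E) :
    fderiv ℝ (curvT G) u w x y z =
      fderiv ℝ (fderiv ℝ (chrisB G)) u w x y z - fderiv ℝ (fderiv ℝ (chrisB G)) u w y x z
      + (fderiv ℝ (chrisB G) u w x (chrisB G u y z) + chrisB G u x (fderiv ℝ (chrisB G) u w y z))
      - (fderiv ℝ (chrisB G) u w y (chrisB G u x z)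
        + chrisB G u y (fderiv ℝ (chrisB G) u w x z)) := by
  have e0 : HasFDerivAt (curvT G) (fderiv ℝ (curvT G) u) u :=
    ((contDiffAt_curvT h hu).differentiableAt (by simp)).hasFDerivAt
  have e1 := ((e0.clm_apply (hasFDerivAt_const x u)).clm_apply
    (hasFDerivAt_const y u)).clm_apply (hasFDerivAt_const z u)
  have hB := h.contDiffAt_chrisB hu
  have b0 : HasFDerivAt (chrisB G) (fderiv ℝ (chrisB G) u) u :=
    (hB.differentiableAt (by simp)).hasFDerivAt
  have b1 : HasFDerivAt (fderiv ℝ (chrisB G)) (fderiv ℝ (fderiv ℝ (chrisB G)) u) u :=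
    ((hB.fderiv_right (m := ∞) (by simp)).differentiableAt (by simp)).hasFDerivAt
  have d1 : ∀ x y z, HasFDerivAt (fun p => fderiv ℝ (chrisB G) p x y z)
      ((((fderiv ℝ (fderiv ℝ (chrisB G)) u).flip x).flip y).flip z) u := fun x y z => by
    refine (((b1.clm_apply (hasFDerivAt_const x u)).clm_apply
      (hasFDerivAt_const y u)).clm_apply (hasFDerivAt_const z u)).congr_fderiv ?_
    ext w; simp
  have d2 : ∀ x y z, HasFDerivAt (fun p => chrisB G p x (chrisB G p y z))
      (((fderiv ℝ (chrisB G) u).flip x).flip (chrisB G u y z) +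
        (chrisB G u x) ∘L (((fderiv ℝ (chrisB G) u).flip y).flip z)) u := fun x y z => by
    refine ((b0.clm_apply (hasFDerivAt_const x u)).clm_apply
      ((b0.clm_apply (hasFDerivAt_const y u)).clm_apply (hasFDerivAt_const z u))).congr_fderiv ?_
    ext w
    simp
    abel
  have e2 := (((d1 x y z).sub (d1 y x z)).add (d2 x y z)).sub (d2 y x z)
  have e3 : (fun p => curvT G p x y z) =ᶠ[𝓝 u] fun p =>
      fderiv ℝ (chrisB G) p x y z - fderiv ℝ (chrisB G) p y x z +
        chrisB G p x (chrisB G p y z) - chrisB G p y (chrisB G p x z) := by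
    filter_upwards [h.mem_nhds hu] with p hp
    rw [curvT_apply h hp, h.curv_eq hp]
  have e4 := (e1.unique (e2.congr_of_eventuallyEq e3))
  have e5 := congrArg (fun L : E →L[ℝ] E => L w) e4
  simpa using e5

/-- **the second Bianchi identity** -/
theorem nabR_bianchi (h : IsMetricOn G U) {u : E} (hu : u ∈ U) (w x y z : E) :
    nabR G u w x y z + nabR G u x y w z + nabR G u y w x z = 0 := by
  have hs := chrisB_symm h hu
  have hB := h.contDiffAt_chrisB hu
  have hss : IsSymmSndFDerivAt ℝ (chrisB G) u :=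
    hB.isSymmSndFDerivAt (by simpa only [minSmoothness_of_isRCLikeNormedField] using two_le_infty)
  have h2 : ∀ a b c d, fderiv ℝ (fderiv ℝ (chrisB G)) u a b c d =
      fderiv ℝ (fderiv ℝ (chrisB G)) u b a c d := fun a b c d => by
    rw [hss a b]
  have hc : ∀ a b c, curvT G u a b c =
      fderiv ℝ (chrisB G) u a b c - fderiv ℝ (chrisB G) u b a c +
        chrisB G u a (chrisB G u b c) - chrisB G u b (chrisB G u a c) := fun a b c => by
    rw [curvT_apply h hu, h.curv_eq hu]
  unfold nabR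
  rw [fderiv_curvT h hu, fderiv_curvT h hu, fderiv_curvT h hu, h2 x w, h2 y x, h2 y w]
  rw [curvT_anti h hu (chrisB G u y w) x z, curvT_anti h hu (chrisB G u x y) w z,
    curvT_anti h hu (chrisB G u w x) y z, hs x w, hs y x, hs y w]
  simp only [hc, map_add, map_sub]
  abel

/-- the curvature components of a linear frame in a chart -/
def RR (G : E → E →L[ℝ] E →L[ℝ] ℝ) (i j k l : ι) (p : E × (ι → E)) : ℝ :=
  G p.1 (curvT G p.1 (p.2 i) (p.2 j) (p.2 k)) (p.2 l)

omit [FiniteDimensional ℝ E] [Fintype ι] in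
theorem RR_apply (i j k l : ι) (p : E × (ι → E)) :
    RR G i j k l p = G p.1 (curvT G p.1 (p.2 i) (p.2 j) (p.2 k)) (p.2 l) := rfl

theorem fderiv_RR (h : IsMetricOn G U) {p : E × (ι → E)} (hp : p.1 ∈ U) (i j k l : ι)
    (q : E × (ι → E)) :
    fderiv ℝ (RR G i j k l) p q =
      fderiv ℝ G p.1 q.1 (curvT G p.1 (p.2 i) (p.2 j) (p.2 k)) (p.2 l)
      + G p.1 (fderiv ℝ (curvT G) p.1 q.1 (p.2 i) (p.2 j) (p.2 k)) (p.2 l)
      + G p.1 (curvT G p.1 (q.2 i) (p.2 j) (p.2 k)) (p.2 l)
      + G p.1 (curvT G p.1 (p.2 i) (q.2 j) (p.2 k)) (p.2 l)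
      + G p.1 (curvT G p.1 (p.2 i) (p.2 j) (q.2 k)) (p.2 l)
      + G p.1 (curvT G p.1 (p.2 i) (p.2 j) (p.2 k)) (q.2 l) := by
  have h1 : HasFDerivAt (fun q : E × (ι → E) => G q.1)
      (fderiv ℝ G p.1 ∘L ContinuousLinearMap.fst ℝ E (ι → E)) p :=
    (h.differentiableAt hp).hasFDerivAt.comp p hasFDerivAt_fst
  have h0 : HasFDerivAt (fun q : E × (ι → E) => curvT G q.1)
      (fderiv ℝ (curvT G) p.1 ∘L ContinuousLinearMap.fst ℝ E (ι → E)) p :=
    ((contDiffAt_curvT h hp).differentiableAt (by simp)).hasFDerivAt.comp p hasFDerivAt_fst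
  have h2 : ∀ c : ι, HasFDerivAt (fun q : E × (ι → E) => q.2 c) (frL c) p := fun c =>
    (frL (E := E) c).hasFDerivAt
  have h3 := (h1.clm_apply (((h0.clm_apply (h2 i)).clm_apply (h2 j)).clm_apply
    (h2 k))).clm_apply (h2 l)
  have h4 : HasFDerivAt (RR G i j k l) _ p := h3
  rw [h4.fderiv]
  simp [frL]
  ring

/-- the horizontal derivatives of the curvature components -/
theorem fderiv_RR_hor (h : IsMetricOn G U) {p : E × (ι → E)} (hp : p.1 ∈ U) (m i j k l : ι) :
    fderiv ℝ (RR G i j k l) p (hor G m p) =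
      G p.1 (nabR G p.1 (p.2 m) (p.2 i) (p.2 j) (p.2 k)) (p.2 l) := by
  rw [fderiv_RR h hp]
  simp only [hor, map_neg, neg_apply, nabR, map_add, map_sub, add_apply, sub_apply]
  rw [h.chris_compat hp]
  simp only [chrisB_apply]
  ring

/-- **second Bianchi identity** for the components -/
theorem fderiv_RR_bianchi (h : IsMetricOn G U) {p : E × (ι → E)} (hp : p.1 ∈ U)
    (m i j k l : ι) :
    fderiv ℝ (RR G i j k l) p (hor G m p) + fderiv ℝ (RR G j m k l) p (hor G i p)
      + fderiv ℝ (RR G m i k l) p (hor G j p) = 0 := by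
  rw [fderiv_RR_hor h hp, fderiv_RR_hor h hp, fderiv_RR_hor h hp]
  have h1 := congrArg (fun z => G p.1 z (p.2 l))
    (nabR_bianchi h hp (p.2 m) (p.2 i) (p.2 j) (p.2 k))
  simpa only [map_add, add_apply, map_zero, zero_apply] using h1

/-- the vertical derivatives of the curvature components -/
theorem fderiv_RR_ver (h : IsMetricOn G U) {p : E × (ι → E)} (hp : p.1 ∈ U)
    (A : Matrix ι ι ℝ) (i j k l : ι) :
    fderiv ℝ (RR G i j k l) p (ver A p) =
      ∑ b, (A b i * RR G b j k l p + A b j * RR G i b k l p + A b k * RR G i j b l p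
        + A b l * RR G i j k b p) := by
  rw [fderiv_RR h hp]
  simp only [ver, map_zero, zero_apply, map_sum, map_smul, sum_apply, smul_apply, smul_eq_mul,
    zero_add, Finset.sum_add_distrib, RR]

theorem contDiffAt_RR (h : IsMetricOn G U) {p : E × (ι → E)} (hp : p.1 ∈ U) (i j k l : ι) :
    ContDiffAt ℝ ∞ (RR G i j k l) p := by
  have h1 : ContDiffAt ℝ ∞ (fun q : E × (ι → E) => G q.1) p :=
    (h.contDiffAt hp).comp p contDiffAt_fst
  have h0 : ContDiffAt ℝ ∞ (fun q : E × (ι → E) => curvT G q.1) p :=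
    (contDiffAt_curvT h hp).comp p contDiffAt_fst
  have h2 : ∀ c : ι, ContDiffAt ℝ ∞ (fun q : E × (ι → E) => q.2 c) p := fun c =>
    (frL (E := E) c).contDiff.contDiffAt
  exact (h1.clm_apply (((h0.clm_apply (h2 i)).clm_apply (h2 j)).clm_apply
    (h2 k))).clm_apply (h2 l)

/-! ### symmetries -/

omit [Fintype ι] in
theorem RR_anti (h : IsMetricOn G U) {p : E × (ι → E)} (hp : p.1 ∈ U) (i j k l : ι) :
    RR G i j k l p = - RR G j i k l p := by
  unfold RR
  rw [curvT_anti h hp]; simp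

omit [Fintype ι] in
theorem RR_skew (h : IsMetricOn G U) {p : E × (ι → E)} (hp : p.1 ∈ U) (i j k l : ι) :
    RR G i j k l p = - RR G i j l k p := curvT_skew h hp _ _ _ _

omit [Fintype ι] in
theorem RR_pair (h : IsMetricOn G U) {p : E × (ι → E)} (hp : p.1 ∈ U) (i j k l : ι) :
    RR G i j k l p = RR G k l i j p := curvT_pair_symm h hp _ _ _ _

omit [Fintype ι] in
theorem RR_bianchi1 (h : IsMetricOn G U) {p : E × (ι → E)} (hp : p.1 ∈ U) (i j k l : ι) :
    RR G i j k l p + RR G j k i l p + RR G k i j l p = 0 := by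
  have h1 := congrArg (fun z => G p.1 z (p.2 l)) (curvT_bianchi h hp (p.2 i) (p.2 j) (p.2 k))
  unfold RR
  simpa only [map_add, add_apply, map_zero, zero_apply] using h1

/-! ### dimension three: the curvature operator as a symmetric `2`-tensor -/

section Three

/-- the curvature operator on planes, read on the normals: `E_22 = K_11`, `E_11 = K_22`,
`E_12 = - K_12` with `K_ij = - ⟨R(e_i, e_0) e_0, e_j⟩` -/
def EE (G : E → E →L[ℝ] E →L[ℝ] ℝ) (a b : Fin 3) (p : E × (Fin 3 → E)) : ℝ :=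
  -RR G (a + 1) (a + 2) (b + 2) (b + 1) p

theorem EE_symm (h : IsMetricOn G U) {p : E × (Fin 3 → E)} (hp : p.1 ∈ U) (a b : Fin 3) :
    EE G a b p = EE G b a p := by
  unfold EE
  rw [RR_pair h hp, RR_anti h hp, RR_skew h hp]
  ring

theorem contDiffAt_EE (h : IsMetricOn G U) {p : E × (Fin 3 → E)} (hp : p.1 ∈ U) (a b : Fin 3) :
    ContDiffAt ℝ ∞ (EE G a b) p := (contDiffAt_RR h hp _ _ _ _).neg

theorem fderiv_EE (h : IsMetricOn G U) {p : E × (Fin 3 → E)} (hp : p.1 ∈ U) (a b : Fin 3)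
    (q : E × (Fin 3 → E)) :
    fderiv ℝ (EE G a b) p q = - fderiv ℝ (RR G (a + 1) (a + 2) (b + 2) (b + 1)) p q := by
  have h1 := ((contDiffAt_RR h hp (a + 1) (a + 2) (b + 2) (b + 1)).differentiableAt
    (by simp)).hasFDerivAt.neg
  have h2 : HasFDerivAt (EE G a b) _ p := h1
  rw [h2.fderiv]
  simp

/-- **the contracted second Bianchi identity**: `E` is divergence free -/
theorem div_EE (h : IsMetricOn G U) {p : E × (Fin 3 → E)} (hp : p.1 ∈ U) (b : Fin 3) :
    ∑ a, fderiv ℝ (EE G a b) p (hor G a p) = 0 := by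
  have h1 := fderiv_RR_bianchi h hp (0 : Fin 3) 1 2 (b + 2) (b + 1)
  simp only [fderiv_EE h hp, Fin.sum_univ_three]
  have e1 : (0 : Fin 3) + 1 = 1 := rfl
  have e2 : (0 : Fin 3) + 2 = 2 := rfl
  have e3 : (1 : Fin 3) + 1 = 2 := rfl
  have e4 : (1 : Fin 3) + 2 = 0 := rfl
  have e5 : (2 : Fin 3) + 1 = 0 := rfl
  have e6 : (2 : Fin 3) + 2 = 1 := rfl
  rw [e1, e2, e3, e4, e5, e6]
  linarith

/-- the vertical derivatives of `E` along the rotations: `E` is a `2`-tensor -/
theorem fderiv_EE_ver (h : IsMetricOn G U) {p : E × (Fin 3 → E)} (hp : p.1 ∈ U)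
    {A : Matrix (Fin 3) (Fin 3) ℝ} (hA : A.transpose = -A) (a b : Fin 3) :
    fderiv ℝ (EE G a b) p (ver A p) = ∑ c, (A c a * EE G c b p + A c b * EE G a c p) := by
  have hs : ∀ i j, A i j = - A j i := fun i j => by
    have := congrFun (congrFun hA j) i
    simpa using this
  have h00 : A 0 0 = 0 := by have := hs 0 0; linarith
  have h11 : A 1 1 = 0 := by have := hs 1 1; linarith
  have h22 : A 2 2 = 0 := by have := hs 2 2; linarith
  have h10 : A 1 0 = - A 0 1 := hs 1 0
  have h20 : A 2 0 = - A 0 2 := hs 2 0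
  have h21 : A 2 1 = - A 1 2 := hs 2 1
  have a1 : ∀ i j k l : Fin 3, RR G j i k l p = - RR G i j k l p := fun i j k l =>
    RR_anti h hp j i k l
  have a2 : ∀ i j k l : Fin 3, RR G i j l k p = - RR G i j k l p := fun i j k l =>
    RR_skew h hp i j l k
  have z1 : ∀ i k l : Fin 3, RR G i i k l p = 0 := fun i k l => by
    have := RR_anti h hp i i k l; linarith
  have z2 : ∀ i j k : Fin 3, RR G i j k k p = 0 := fun i j k => by
    have := RR_skew h hp i j k k; linarith
  rw [fderiv_EE h hp, fderiv_RR_ver h hp]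
  fin_cases a <;> fin_cases b <;>
  · simp only [Fin.sum_univ_three, EE, Fin.reduceFinMk, Fin.zero_eta, Fin.isValue, Fin.mk_one,
      Fin.reduceAdd, zero_add, h00, h11, h22, h10, h20, h21, z1, z2, mul_zero, zero_mul, add_zero,
      a1 0 1, a1 0 2, a1 1 2, a2 _ _ 0 1, a2 _ _ 0 2, a2 _ _ 1 2]
    ring

/-- the curvature matrix in terms of `E` -/
theorem curv_matrix_EE (h : IsMetricOn G U) {p : E × (Fin 3 → E)} (hp : p.1 ∈ U) (a : Fin 3) :
    (Matrix.of fun d c => -(G p.1 (curvT G p.1 (p.2 (a + 1)) (p.2 (a + 2)) (p.2 c)) (p.2 d))) =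
      ∑ b, EE G a b p • Brk.rot (b + 1) (b + 2) := by
  have a2 : ∀ i j k l : Fin 3, RR G i j l k p = - RR G i j k l p := fun i j k l =>
    RR_skew h hp i j l k
  have z2 : ∀ i j k : Fin 3, RR G i j k k p = 0 := fun i j k => by
    have := RR_skew h hp i j k k; linarith
  have e : ∀ i j c d : Fin 3, G p.1 (curvT G p.1 (p.2 i) (p.2 j) (p.2 c)) (p.2 d) =
      RR G i j c d p := fun i j c d => rfl
  ext d c
  simp only [Matrix.of_apply, e, Fin.sum_univ_three, Matrix.add_apply, Matrix.smul_apply,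
    Brk.rot, Matrix.sub_apply, Matrix.single_apply, EE, smul_eq_mul]
  fin_cases d <;> fin_cases c <;>
  · simp [z2, a2 _ _ 0 1, a2 _ _ 0 2, a2 _ _ 1 2]

/-- `[H_{a+1}, H_{a+2}] = ∑_b E_ab V(rot (b+1) (b+2))` at an orthonormal frame -/
theorem lieBracket_hor_hor_EE (h : IsMetricOn G U) {p : E × (Fin 3 → E)} (hp : p.1 ∈ U)
    (hcard : 3 = Module.finrank ℝ E)
    (ho : ∀ b c, G p.1 (p.2 b) (p.2 c) = if b = c then 1 else 0) (a : Fin 3) :
    VectorField.lieBracket ℝ (hor G (a + 1)) (hor G (a + 2)) p =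
      ver (∑ b, EE G a b p • Brk.rot (b + 1) (b + 2)) p := by
  rw [lieBracket_hor_hor_orth h hp (by simpa using hcard) ho, curv_matrix_EE h hp]

end Three

end Coord

end Vale.Agent.P207.Q.H545
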